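import Vale.Agent.Lib.P090.Nets

namespace Vale.Agent.Results.P090.NetsBAP

open Vale.Agent.Lib.P090

universe u

/-- Every real inner product space has the metric approximation property. -/
theorem hilbert_map (H : Type u) [NormedAddCommGroup H] [InnerProductSpace ℝ H] : HasBAP 1 H := by
  classical
  intro C hC ε hε
  obtain ⟨t, _, htfin, hcover⟩ := finite_cover_balls_of_compact hC (half_pos hε)
  let E : Submodule ℝ H := Submodule.span ℝ t
  have hE : FiniteDimensional ℝ E := FiniteDimensional.span_of_finite ℝ htfin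
  refine ⟨E.starProjection, ?_, E.starProjection_norm_le, ?_⟩
  · have hle : LinearMap.range (E.starProjection : H →ₗ[ℝ] H) ≤ E := by
      rintro _ ⟨x, rfl⟩
      exact E.starProjection_apply_mem x
    exact Submodule.finiteDimensional_of_le hle
  · intro w hw
    have := hcover hw
    simp only [Set.mem_iUnion, Metric.mem_ball, exists_prop] at this
    obtain ⟨u, hut, hwu⟩ := this
    rw [dist_eq_norm] at hwu
    have hu : E.starProjection u = u :=
      Submodule.starProjection_eq_self_iff.mpr (Submodule.subset_span hut)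
    have h1 : E.starProjection w - w = E.starProjection (w - u) + (u - w) := by
      rw [map_sub, hu]
      abel
    have h2 : ‖E.starProjection (w - u)‖ ≤ ‖w - u‖ := by
      have := (E.starProjection).le_opNorm (w - u)
      have h3 := E.starProjection_norm_le
      nlinarith [norm_nonneg (w - u)]
    rw [h1]
    have h4 := norm_add_le (E.starProjection (w - u)) (u - w)
    rw [norm_sub_rev u w] at h4
    linarith

/-- (1) Retraction criterion: if every finite subset of a pointed metric space `M` is fixed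
pointwise by a `lam`-Lipschitz self-map of `M` with finite range, then `F(M)` has the `lam`-BAP.
(2) If a normed space `X` has the `lam`-BAP and `N ⊆ X` is a net (`a`-separated and `b`-dense),
then `F(N)` has the `(3 lam + 1/2 + 2 b / a)`-BAP.
(3) In particular `F(N)` has the BAP for every net `N` in a Hilbert space of any dimension. -/
theorem result :
    (∀ (M : Type u) [MetricSpace M] (o : M) (lam : ℝ), 0 ≤ lam →
      (∀ F : Finset M, ∃ r : M → M, (Set.range r).Finite ∧
        (∀ x y, dist (r x) (r y) ≤ lam * dist x y) ∧ ∀ x ∈ F, r x = x) →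
      HasBAP lam (LipFree M o)) ∧
    (∀ (X : Type u) [NormedAddCommGroup X] [NormedSpace ℝ X] (lam : ℝ), 0 ≤ lam → HasBAP lam X →
      ∀ (N : Set X) (a b : ℝ), 0 < a → 0 ≤ b →
        (∀ x ∈ N, ∀ y ∈ N, x ≠ y → a ≤ ‖x - y‖) → (∀ z : X, ∃ x ∈ N, ‖z - x‖ ≤ b) →
        ∀ o : N, HasBAP (3 * lam + 1 / 2 + 2 * b / a) (LipFree N o)) ∧
    (∀ (H : Type u) [NormedAddCommGroup H] [InnerProductSpace ℝ H]
      (N : Set H) (a b : ℝ), 0 < a → 0 ≤ b →
        (∀ x ∈ N, ∀ y ∈ N, x ≠ y → a ≤ ‖x - y‖) → (∀ z : H, ∃ x ∈ N, ‖z - x‖ ≤ b) →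
        ∀ o : N, HasBAP (7 / 2 + 2 * b / a) (LipFree N o)) := by
  refine ⟨?_, ?_, ?_⟩
  · intro M _ o lam hlam h
    exact bap_of_maps lam hlam h
  · intro X _ _ lam hlam hX N a b ha hb hsep hnet o
    exact bap_of_net lam hlam hX N a b ha hb hsep hnet o
  · intro H _ _ N a b ha hb hsep hnet o
    have := bap_of_net 1 zero_le_one (hilbert_map H) N a b ha hb hsep hnet o
    have e : (3 * 1 + 1 / 2 + 2 * b / a : ℝ) = 7 / 2 + 2 * b / a := by ring
    rwa [e] at this

end Vale.Agent.Results.P090.NetsBAP
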